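import Vale.Agent.P141.H927.FewDefs

/-!
# P141, composite events, few singular values: the bad configurations

For a fixed square `(y, z)` the octahedron sum over the configurations in which one of the six
mixed vertices is not comparable with the pivot vertex is at most `12 E ^ 4 / b`.
-/

namespace Vale.Agent.P141.H651

open Finset Vale.Agent.P141.H927

noncomputable section

/-- one of the six mixed vertices is not comparable with the pivot vertex, ratio `b` -/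
def Bad (b : ℝ) (F : ℤ → ℤ → ℤ → ℝ) (x x' y y' z z' : ℤ) : Prop :=
  ∃ v ∈ [F x y z', F x y' z, F x' y z, F x y' z', F x' y z', F x' y' z],
    b * |v| ≤ |F x' y' z'| ∨ b * |F x' y' z'| ≤ |v|

theorem pair_le {b v u : ℝ} (hb : 0 < b) (h : b * |v| ≤ |u| ∨ b * |u| ≤ |v|) :
    |v * u| ≤ (v ^ 2 + u ^ 2) / b := by
  rw [le_div_iff₀ hb, abs_mul]
  have h1 : |v| * |v| = v ^ 2 := by rw [abs_mul_abs_self]; ring
  have h2 : |u| * |u| = u ^ 2 := by rw [abs_mul_abs_self]; ring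
  have h3 := abs_nonneg v
  have h4 := abs_nonneg u
  rcases h with h | h
  · nlinarith [mul_le_mul_of_nonneg_right h h4, sq_nonneg v]
  · nlinarith [mul_le_mul_of_nonneg_left h h3, sq_nonneg u]

theorem prod_le {b v u s t : ℝ} (hb : 0 < b) (h : b * |v| ≤ |u| ∨ b * |u| ≤ |v|) :
    |v * u * (s * t)| ≤ (2 * b)⁻¹ * ((v ^ 2 + u ^ 2) * (s ^ 2 + t ^ 2)) := by
  have h1 := pair_le hb h
  have h2 : |s * t| ≤ (s ^ 2 + t ^ 2) / 2 := by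
    rw [abs_le]
    constructor <;> nlinarith [sq_nonneg (s + t), sq_nonneg (s - t)]
  rw [abs_mul]
  calc |v * u| * |s * t| ≤ ((v ^ 2 + u ^ 2) / b) * ((s ^ 2 + t ^ 2) / 2) :=
        mul_le_mul h1 h2 (abs_nonneg _) (by positivity)
    _ = (2 * b)⁻¹ * ((v ^ 2 + u ^ 2) * (s ^ 2 + t ^ 2)) := by
        field_simp

/-- four injective forms: the sum of the products of squares is at most `E ^ 4` -/
theorem four_sum {P : Finset (ℤ × ℤ × ℤ × ℤ)} {W : Finset ℤ} {f : ℤ → ℝ} {E : ℝ}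
    (hE : ∑ y ∈ W, f y ^ 2 ≤ E) (l1 l2 l3 l4 : ℤ × ℤ × ℤ × ℤ → ℤ)
    (h1 : ∀ p ∈ P, l1 p ∈ W) (h2 : ∀ p ∈ P, l2 p ∈ W) (h3 : ∀ p ∈ P, l3 p ∈ W)
    (h4 : ∀ p ∈ P, l4 p ∈ W)
    (hi : ∀ p q, l1 p = l1 q → l2 p = l2 q → l3 p = l3 q → l4 p = l4 q → p = q) :
    ∑ p ∈ P, f (l1 p) ^ 2 * (f (l2 p) * f (l3 p) * f (l4 p)) ^ 2 ≤ E ^ 4 := by
  classical
  set g : ℤ × ℤ × ℤ × ℤ → ℝ := fun r => f r.1 ^ 2 * (f r.2.1 ^ 2 * (f r.2.2.1 ^ 2 * f r.2.2.2 ^ 2))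
    with hg
  set φ : ℤ × ℤ × ℤ × ℤ → ℤ × ℤ × ℤ × ℤ := fun p => (l1 p, l2 p, l3 p, l4 p) with hφ
  have hinj : Set.InjOn φ P := by
    intro p _ q _ h
    simp only [hφ, Prod.mk.injEq] at h
    exact hi p q h.1 h.2.1 h.2.2.1 h.2.2.2
  have hsub : P.image φ ⊆ W ×ˢ (W ×ˢ (W ×ˢ W)) := by
    intro r hr
    obtain ⟨p, hp, rfl⟩ := Finset.mem_image.1 hr
    simp only [Finset.mem_product, hφ]
    exact ⟨h1 p hp, h2 p hp, h3 p hp, h4 p hp⟩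
  have e0 : 0 ≤ ∑ y ∈ W, f y ^ 2 := Finset.sum_nonneg fun _ _ => sq_nonneg _
  calc ∑ p ∈ P, f (l1 p) ^ 2 * (f (l2 p) * f (l3 p) * f (l4 p)) ^ 2
      = ∑ p ∈ P, g (φ p) := Finset.sum_congr rfl fun p _ => by simp only [hg, hφ]; ring
    _ = ∑ r ∈ P.image φ, g r := (Finset.sum_image hinj).symm
    _ ≤ ∑ r ∈ W ×ˢ (W ×ˢ (W ×ˢ W)), g r :=
        Finset.sum_le_sum_of_subset_of_nonneg hsub fun _ _ _ => by simp only [hg]; positivity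
    _ = (∑ y ∈ W, f y ^ 2) ^ 4 := by
        rw [Finset.sum_product]
        simp only [hg]
        simp_rw [Finset.sum_product, ← Finset.mul_sum, ← Finset.sum_mul]
        ring
    _ ≤ E ^ 4 := pow_le_pow_left₀ e0 hE 4

/-- the vertex forms as functions of `(x, x', y', z')` -/
def vt (c : ℤ × ℤ × ℤ) (y z : ℤ) (a b d : Bool) (p : ℤ × ℤ × ℤ × ℤ) : ℤ :=
  c.1 * (cond a p.2.1 p.1) + c.2.1 * (cond b p.2.2.1 y) + c.2.2 * (cond d p.2.2.2 z)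

theorem inj_of {c : ℤ × ℤ × ℤ} (hc : c.1 ≠ 0 ∧ c.2.1 ≠ 0 ∧ c.2.2 ≠ 0) {p q : ℤ × ℤ × ℤ × ℤ}
    (h1 : c.1 * p.1 = c.1 * q.1) (h2 : c.1 * p.2.1 = c.1 * q.2.1)
    (h3 : c.2.1 * p.2.2.1 = c.2.1 * q.2.2.1) (h4 : c.2.2 * p.2.2.2 = c.2.2 * q.2.2.2) : p = q := by
  obtain ⟨x, x', y', z'⟩ := p
  obtain ⟨s, s', u', v'⟩ := q
  simp only at h1 h2 h3 h4
  rw [mul_left_cancel₀ hc.1 h1, mul_left_cancel₀ hc.1 h2, mul_left_cancel₀ hc.2.1 h3,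
    mul_left_cancel₀ hc.2.2 h4]

/-- one mixed vertex: the four sums -/
theorem four_four {P : Finset (ℤ × ℤ × ℤ × ℤ)} {W : Finset ℤ} {f : ℤ → ℝ} {E : ℝ}
    (hE : ∑ y ∈ W, f y ^ 2 ≤ E) (v u t1 t2 t3 s1 s2 s3 : ℤ × ℤ × ℤ × ℤ → ℤ)
    (hv : ∀ p ∈ P, v p ∈ W) (hu : ∀ p ∈ P, u p ∈ W)
    (ht1 : ∀ p ∈ P, t1 p ∈ W) (ht2 : ∀ p ∈ P, t2 p ∈ W) (ht3 : ∀ p ∈ P, t3 p ∈ W)
    (hs1 : ∀ p ∈ P, s1 p ∈ W) (hs2 : ∀ p ∈ P, s2 p ∈ W) (hs3 : ∀ p ∈ P, s3 p ∈ W)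
    (i1 : ∀ p q, v p = v q → t1 p = t1 q → t2 p = t2 q → t3 p = t3 q → p = q)
    (i2 : ∀ p q, v p = v q → s1 p = s1 q → s2 p = s2 q → s3 p = s3 q → p = q)
    (i3 : ∀ p q, u p = u q → t1 p = t1 q → t2 p = t2 q → t3 p = t3 q → p = q)
    (i4 : ∀ p q, u p = u q → s1 p = s1 q → s2 p = s2 q → s3 p = s3 q → p = q) :
    ∑ p ∈ P, (f (v p) ^ 2 + f (u p) ^ 2) *
      ((f (t1 p) * f (t2 p) * f (t3 p)) ^ 2 + (f (s1 p) * f (s2 p) * f (s3 p)) ^ 2) ≤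
      4 * E ^ 4 := by
  have a1 := four_sum hE v t1 t2 t3 hv ht1 ht2 ht3 i1
  have a2 := four_sum hE v s1 s2 s3 hv hs1 hs2 hs3 i2
  have a3 := four_sum hE u t1 t2 t3 hu ht1 ht2 ht3 i3
  have a4 := four_sum hE u s1 s2 s3 hu hs1 hs2 hs3 i4
  have e : ∑ p ∈ P, (f (v p) ^ 2 + f (u p) ^ 2) *
      ((f (t1 p) * f (t2 p) * f (t3 p)) ^ 2 + (f (s1 p) * f (s2 p) * f (s3 p)) ^ 2) =
      (∑ p ∈ P, f (v p) ^ 2 * (f (t1 p) * f (t2 p) * f (t3 p)) ^ 2 +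
        ∑ p ∈ P, f (v p) ^ 2 * (f (s1 p) * f (s2 p) * f (s3 p)) ^ 2) +
      (∑ p ∈ P, f (u p) ^ 2 * (f (t1 p) * f (t2 p) * f (t3 p)) ^ 2 +
        ∑ p ∈ P, f (u p) ^ 2 * (f (s1 p) * f (s2 p) * f (s3 p)) ^ 2) := by
    rw [← Finset.sum_add_distrib, ← Finset.sum_add_distrib, ← Finset.sum_add_distrib]
    exact Finset.sum_congr rfl fun p _ => by ring
  rw [e]
  linarith

/-- the majorant of one mixed vertex `v` with the two triples -/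
def mj (c : ℤ × ℤ × ℤ) (f : ℤ → ℝ) (y z : ℤ) (v t1 t2 t3 s1 s2 s3 : Bool × Bool × Bool)
    (p : ℤ × ℤ × ℤ × ℤ) : ℝ :=
  (f (vt c y z v.1 v.2.1 v.2.2 p) ^ 2 + f (vt c y z true true true p) ^ 2) *
  ((f (vt c y z t1.1 t1.2.1 t1.2.2 p) * f (vt c y z t2.1 t2.2.1 t2.2.2 p) *
      f (vt c y z t3.1 t3.2.1 t3.2.2 p)) ^ 2 +
    (f (vt c y z s1.1 s1.2.1 s1.2.2 p) * f (vt c y z s2.1 s2.2.1 s2.2.2 p) *
      f (vt c y z s3.1 s3.2.1 s3.2.2 p)) ^ 2)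

theorem mj_nonneg (c : ℤ × ℤ × ℤ) (f : ℤ → ℝ) (y z : ℤ) (v t1 t2 t3 s1 s2 s3 : Bool × Bool × Bool)
    (p : ℤ × ℤ × ℤ × ℤ) : 0 ≤ mj c f y z v t1 t2 t3 s1 s2 s3 p := by
  unfold mj
  positivity

/-- the majorant of the vertex 100 -/
def m100 (c : ℤ × ℤ × ℤ) (f : ℤ → ℝ) (y z : ℤ) (p : ℤ × ℤ × ℤ × ℤ) : ℝ :=
  mj c f y z (true, false, false) (false, false, false) (false, true, false)
    (false, false, true) (true, true, false) (true, false, true)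
    (false, true, true) p

theorem sum_m100 {c : ℤ × ℤ × ℤ} (hc : c.1 ≠ 0 ∧ c.2.1 ≠ 0 ∧ c.2.2 ≠ 0)
    {P : Finset (ℤ × ℤ × ℤ × ℤ)} {W : Finset ℤ} {f : ℤ → ℝ} {E : ℝ} (hE : ∑ y ∈ W, f y ^ 2 ≤ E)
    {y z : ℤ} (hm : ∀ a b d : Bool, ∀ p ∈ P, vt c y z a b d p ∈ W) :
    ∑ p ∈ P, m100 c f y z p ≤ 4 * E ^ 4 := by
  unfold m100 mj
  refine four_four hE _ _ _ _ _ _ _ _ (hm _ _ _) (hm _ _ _) (hm _ _ _) (hm _ _ _) (hm _ _ _)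
    (hm _ _ _) (hm _ _ _) (hm _ _ _) ?_ ?_ ?_ ?_ <;>
  · intro p q h1 h2 h3 h4
    simp only [vt, cond] at h1 h2 h3 h4
    refine inj_of hc ?_ ?_ ?_ ?_ <;> linarith

theorem pt_m100 (c : ℤ × ℤ × ℤ) (f : ℤ → ℝ) (y z : ℤ) {b : ℝ} (hb : 0 < b)
    (p : ℤ × ℤ × ℤ × ℤ)
    (h : b * |lf c f p.2.1 y z| ≤ |lf c f p.2.1 p.2.2.1 p.2.2.2| ∨
      b * |lf c f p.2.1 p.2.2.1 p.2.2.2| ≤ |lf c f p.2.1 y z|) :
    |o8 (lf c f) p.1 p.2.1 y p.2.2.1 z p.2.2.2| ≤ (2 * b)⁻¹ * m100 c f y z p := by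
  have h1 := prod_le (s := lf c f p.1 y z * lf c f p.1 p.2.2.1 z * lf c f p.1 y p.2.2.2)
    (t := lf c f p.2.1 p.2.2.1 z * lf c f p.2.1 y p.2.2.2 * lf c f p.1 p.2.2.1 p.2.2.2) hb h
  refine le_trans (le_of_eq ?_) (h1.trans (le_of_eq ?_))
  · unfold o8
    congr 1
    ring
  · simp only [m100, mj, vt, cond, lf]

/-- the majorant of the vertex 010 -/
def m010 (c : ℤ × ℤ × ℤ) (f : ℤ → ℝ) (y z : ℤ) (p : ℤ × ℤ × ℤ × ℤ) : ℝ :=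
  mj c f y z (false, true, false) (false, false, false) (true, false, false)
    (false, false, true) (true, true, false) (true, false, true)
    (false, true, true) p

theorem sum_m010 {c : ℤ × ℤ × ℤ} (hc : c.1 ≠ 0 ∧ c.2.1 ≠ 0 ∧ c.2.2 ≠ 0)
    {P : Finset (ℤ × ℤ × ℤ × ℤ)} {W : Finset ℤ} {f : ℤ → ℝ} {E : ℝ} (hE : ∑ y ∈ W, f y ^ 2 ≤ E)
    {y z : ℤ} (hm : ∀ a b d : Bool, ∀ p ∈ P, vt c y z a b d p ∈ W) :
    ∑ p ∈ P, m010 c f y z p ≤ 4 * E ^ 4 := by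
  unfold m010 mj
  refine four_four hE _ _ _ _ _ _ _ _ (hm _ _ _) (hm _ _ _) (hm _ _ _) (hm _ _ _) (hm _ _ _)
    (hm _ _ _) (hm _ _ _) (hm _ _ _) ?_ ?_ ?_ ?_ <;>
  · intro p q h1 h2 h3 h4
    simp only [vt, cond] at h1 h2 h3 h4
    refine inj_of hc ?_ ?_ ?_ ?_ <;> linarith

theorem pt_m010 (c : ℤ × ℤ × ℤ) (f : ℤ → ℝ) (y z : ℤ) {b : ℝ} (hb : 0 < b)
    (p : ℤ × ℤ × ℤ × ℤ)
    (h : b * |lf c f p.1 p.2.2.1 z| ≤ |lf c f p.2.1 p.2.2.1 p.2.2.2| ∨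
      b * |lf c f p.2.1 p.2.2.1 p.2.2.2| ≤ |lf c f p.1 p.2.2.1 z|) :
    |o8 (lf c f) p.1 p.2.1 y p.2.2.1 z p.2.2.2| ≤ (2 * b)⁻¹ * m010 c f y z p := by
  have h1 := prod_le (s := lf c f p.1 y z * lf c f p.2.1 y z * lf c f p.1 y p.2.2.2)
    (t := lf c f p.2.1 p.2.2.1 z * lf c f p.2.1 y p.2.2.2 * lf c f p.1 p.2.2.1 p.2.2.2) hb h
  refine le_trans (le_of_eq ?_) (h1.trans (le_of_eq ?_))
  · unfold o8
    congr 1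
    ring
  · simp only [m010, mj, vt, cond, lf]

/-- the majorant of the vertex 001 -/
def m001 (c : ℤ × ℤ × ℤ) (f : ℤ → ℝ) (y z : ℤ) (p : ℤ × ℤ × ℤ × ℤ) : ℝ :=
  mj c f y z (false, false, true) (false, false, false) (true, false, false)
    (false, true, false) (true, true, false) (true, false, true)
    (false, true, true) p

theorem sum_m001 {c : ℤ × ℤ × ℤ} (hc : c.1 ≠ 0 ∧ c.2.1 ≠ 0 ∧ c.2.2 ≠ 0)
    {P : Finset (ℤ × ℤ × ℤ × ℤ)} {W : Finset ℤ} {f : ℤ → ℝ} {E : ℝ} (hE : ∑ y ∈ W, f y ^ 2 ≤ E)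
    {y z : ℤ} (hm : ∀ a b d : Bool, ∀ p ∈ P, vt c y z a b d p ∈ W) :
    ∑ p ∈ P, m001 c f y z p ≤ 4 * E ^ 4 := by
  unfold m001 mj
  refine four_four hE _ _ _ _ _ _ _ _ (hm _ _ _) (hm _ _ _) (hm _ _ _) (hm _ _ _) (hm _ _ _)
    (hm _ _ _) (hm _ _ _) (hm _ _ _) ?_ ?_ ?_ ?_ <;>
  · intro p q h1 h2 h3 h4
    simp only [vt, cond] at h1 h2 h3 h4
    refine inj_of hc ?_ ?_ ?_ ?_ <;> linarith

theorem pt_m001 (c : ℤ × ℤ × ℤ) (f : ℤ → ℝ) (y z : ℤ) {b : ℝ} (hb : 0 < b)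
    (p : ℤ × ℤ × ℤ × ℤ)
    (h : b * |lf c f p.1 y p.2.2.2| ≤ |lf c f p.2.1 p.2.2.1 p.2.2.2| ∨
      b * |lf c f p.2.1 p.2.2.1 p.2.2.2| ≤ |lf c f p.1 y p.2.2.2|) :
    |o8 (lf c f) p.1 p.2.1 y p.2.2.1 z p.2.2.2| ≤ (2 * b)⁻¹ * m001 c f y z p := by
  have h1 := prod_le (s := lf c f p.1 y z * lf c f p.2.1 y z * lf c f p.1 p.2.2.1 z)
    (t := lf c f p.2.1 p.2.2.1 z * lf c f p.2.1 y p.2.2.2 * lf c f p.1 p.2.2.1 p.2.2.2) hb h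
  refine le_trans (le_of_eq ?_) (h1.trans (le_of_eq ?_))
  · unfold o8
    congr 1
    ring
  · simp only [m001, mj, vt, cond, lf]

/-- the majorant of the vertex 110 -/
def m110 (c : ℤ × ℤ × ℤ) (f : ℤ → ℝ) (y z : ℤ) (p : ℤ × ℤ × ℤ × ℤ) : ℝ :=
  mj c f y z (true, true, false) (true, false, false) (false, true, false)
    (false, false, true) (false, false, false) (true, false, true)
    (false, true, true) p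

theorem sum_m110 {c : ℤ × ℤ × ℤ} (hc : c.1 ≠ 0 ∧ c.2.1 ≠ 0 ∧ c.2.2 ≠ 0)
    {P : Finset (ℤ × ℤ × ℤ × ℤ)} {W : Finset ℤ} {f : ℤ → ℝ} {E : ℝ} (hE : ∑ y ∈ W, f y ^ 2 ≤ E)
    {y z : ℤ} (hm : ∀ a b d : Bool, ∀ p ∈ P, vt c y z a b d p ∈ W) :
    ∑ p ∈ P, m110 c f y z p ≤ 4 * E ^ 4 := by
  unfold m110 mj
  refine four_four hE _ _ _ _ _ _ _ _ (hm _ _ _) (hm _ _ _) (hm _ _ _) (hm _ _ _) (hm _ _ _)
    (hm _ _ _) (hm _ _ _) (hm _ _ _) ?_ ?_ ?_ ?_ <;>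
  · intro p q h1 h2 h3 h4
    simp only [vt, cond] at h1 h2 h3 h4
    refine inj_of hc ?_ ?_ ?_ ?_ <;> linarith

theorem pt_m110 (c : ℤ × ℤ × ℤ) (f : ℤ → ℝ) (y z : ℤ) {b : ℝ} (hb : 0 < b)
    (p : ℤ × ℤ × ℤ × ℤ)
    (h : b * |lf c f p.2.1 p.2.2.1 z| ≤ |lf c f p.2.1 p.2.2.1 p.2.2.2| ∨
      b * |lf c f p.2.1 p.2.2.1 p.2.2.2| ≤ |lf c f p.2.1 p.2.2.1 z|) :
    |o8 (lf c f) p.1 p.2.1 y p.2.2.1 z p.2.2.2| ≤ (2 * b)⁻¹ * m110 c f y z p := by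
  have h1 := prod_le (s := lf c f p.2.1 y z * lf c f p.1 p.2.2.1 z * lf c f p.1 y p.2.2.2)
    (t := lf c f p.1 y z * lf c f p.2.1 y p.2.2.2 * lf c f p.1 p.2.2.1 p.2.2.2) hb h
  refine le_trans (le_of_eq ?_) (h1.trans (le_of_eq ?_))
  · unfold o8
    congr 1
    ring
  · simp only [m110, mj, vt, cond, lf]

/-- the majorant of the vertex 101 -/
def m101 (c : ℤ × ℤ × ℤ) (f : ℤ → ℝ) (y z : ℤ) (p : ℤ × ℤ × ℤ × ℤ) : ℝ :=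
  mj c f y z (true, false, true) (true, false, false) (false, true, false)
    (false, false, true) (false, false, false) (true, true, false)
    (false, true, true) p

theorem sum_m101 {c : ℤ × ℤ × ℤ} (hc : c.1 ≠ 0 ∧ c.2.1 ≠ 0 ∧ c.2.2 ≠ 0)
    {P : Finset (ℤ × ℤ × ℤ × ℤ)} {W : Finset ℤ} {f : ℤ → ℝ} {E : ℝ} (hE : ∑ y ∈ W, f y ^ 2 ≤ E)
    {y z : ℤ} (hm : ∀ a b d : Bool, ∀ p ∈ P, vt c y z a b d p ∈ W) :
    ∑ p ∈ P, m101 c f y z p ≤ 4 * E ^ 4 := by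
  unfold m101 mj
  refine four_four hE _ _ _ _ _ _ _ _ (hm _ _ _) (hm _ _ _) (hm _ _ _) (hm _ _ _) (hm _ _ _)
    (hm _ _ _) (hm _ _ _) (hm _ _ _) ?_ ?_ ?_ ?_ <;>
  · intro p q h1 h2 h3 h4
    simp only [vt, cond] at h1 h2 h3 h4
    refine inj_of hc ?_ ?_ ?_ ?_ <;> linarith

theorem pt_m101 (c : ℤ × ℤ × ℤ) (f : ℤ → ℝ) (y z : ℤ) {b : ℝ} (hb : 0 < b)
    (p : ℤ × ℤ × ℤ × ℤ)
    (h : b * |lf c f p.2.1 y p.2.2.2| ≤ |lf c f p.2.1 p.2.2.1 p.2.2.2| ∨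
      b * |lf c f p.2.1 p.2.2.1 p.2.2.2| ≤ |lf c f p.2.1 y p.2.2.2|) :
    |o8 (lf c f) p.1 p.2.1 y p.2.2.1 z p.2.2.2| ≤ (2 * b)⁻¹ * m101 c f y z p := by
  have h1 := prod_le (s := lf c f p.2.1 y z * lf c f p.1 p.2.2.1 z * lf c f p.1 y p.2.2.2)
    (t := lf c f p.1 y z * lf c f p.2.1 p.2.2.1 z * lf c f p.1 p.2.2.1 p.2.2.2) hb h
  refine le_trans (le_of_eq ?_) (h1.trans (le_of_eq ?_))
  · unfold o8
    congr 1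
    ring
  · simp only [m101, mj, vt, cond, lf]

/-- the majorant of the vertex 011 -/
def m011 (c : ℤ × ℤ × ℤ) (f : ℤ → ℝ) (y z : ℤ) (p : ℤ × ℤ × ℤ × ℤ) : ℝ :=
  mj c f y z (false, true, true) (true, false, false) (false, true, false)
    (false, false, true) (false, false, false) (true, true, false)
    (true, false, true) p

theorem sum_m011 {c : ℤ × ℤ × ℤ} (hc : c.1 ≠ 0 ∧ c.2.1 ≠ 0 ∧ c.2.2 ≠ 0)
    {P : Finset (ℤ × ℤ × ℤ × ℤ)} {W : Finset ℤ} {f : ℤ → ℝ} {E : ℝ} (hE : ∑ y ∈ W, f y ^ 2 ≤ E)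
    {y z : ℤ} (hm : ∀ a b d : Bool, ∀ p ∈ P, vt c y z a b d p ∈ W) :
    ∑ p ∈ P, m011 c f y z p ≤ 4 * E ^ 4 := by
  unfold m011 mj
  refine four_four hE _ _ _ _ _ _ _ _ (hm _ _ _) (hm _ _ _) (hm _ _ _) (hm _ _ _) (hm _ _ _)
    (hm _ _ _) (hm _ _ _) (hm _ _ _) ?_ ?_ ?_ ?_ <;>
  · intro p q h1 h2 h3 h4
    simp only [vt, cond] at h1 h2 h3 h4
    refine inj_of hc ?_ ?_ ?_ ?_ <;> linarith

theorem pt_m011 (c : ℤ × ℤ × ℤ) (f : ℤ → ℝ) (y z : ℤ) {b : ℝ} (hb : 0 < b)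
    (p : ℤ × ℤ × ℤ × ℤ)
    (h : b * |lf c f p.1 p.2.2.1 p.2.2.2| ≤ |lf c f p.2.1 p.2.2.1 p.2.2.2| ∨
      b * |lf c f p.2.1 p.2.2.1 p.2.2.2| ≤ |lf c f p.1 p.2.2.1 p.2.2.2|) :
    |o8 (lf c f) p.1 p.2.1 y p.2.2.1 z p.2.2.2| ≤ (2 * b)⁻¹ * m011 c f y z p := by
  have h1 := prod_le (s := lf c f p.2.1 y z * lf c f p.1 p.2.2.1 z * lf c f p.1 y p.2.2.2)
    (t := lf c f p.1 y z * lf c f p.2.1 p.2.2.1 z * lf c f p.2.1 y p.2.2.2) hb h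
  refine le_trans (le_of_eq ?_) (h1.trans (le_of_eq ?_))
  · unfold o8
    congr 1
    ring
  · simp only [m011, mj, vt, cond, lf]

theorem pt_all (c : ℤ × ℤ × ℤ) (f : ℤ → ℝ) (y z : ℤ) {b : ℝ} (hb : 0 < b)
    (p : ℤ × ℤ × ℤ × ℤ) (h : Bad b (lf c f) p.1 p.2.1 y p.2.2.1 z p.2.2.2) :
    |o8 (lf c f) p.1 p.2.1 y p.2.2.1 z p.2.2.2| ≤ (2 * b)⁻¹ *
      (m001 c f y z p + m010 c f y z p + m100 c f y z p + m011 c f y z p + m101 c f y z p +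
        m110 c f y z p) := by
  have q1 : 0 ≤ m001 c f y z p := mj_nonneg _ _ _ _ _ _ _ _ _ _ _ _
  have q2 : 0 ≤ m010 c f y z p := mj_nonneg _ _ _ _ _ _ _ _ _ _ _ _
  have q3 : 0 ≤ m100 c f y z p := mj_nonneg _ _ _ _ _ _ _ _ _ _ _ _
  have q4 : 0 ≤ m011 c f y z p := mj_nonneg _ _ _ _ _ _ _ _ _ _ _ _
  have q5 : 0 ≤ m101 c f y z p := mj_nonneg _ _ _ _ _ _ _ _ _ _ _ _
  have q6 : 0 ≤ m110 c f y z p := mj_nonneg _ _ _ _ _ _ _ _ _ _ _ _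
  have hbi : 0 ≤ (2 * b)⁻¹ := by positivity
  obtain ⟨v, hv, hvb⟩ := h
  simp only [List.mem_cons, List.not_mem_nil, or_false] at hv
  rcases hv with rfl | rfl | rfl | rfl | rfl | rfl
  · exact (pt_m001 c f y z hb p hvb).trans (mul_le_mul_of_nonneg_left (by linarith) hbi)
  · exact (pt_m010 c f y z hb p hvb).trans (mul_le_mul_of_nonneg_left (by linarith) hbi)
  · exact (pt_m100 c f y z hb p hvb).trans (mul_le_mul_of_nonneg_left (by linarith) hbi)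
  · exact (pt_m011 c f y z hb p hvb).trans (mul_le_mul_of_nonneg_left (by linarith) hbi)
  · exact (pt_m101 c f y z hb p hvb).trans (mul_le_mul_of_nonneg_left (by linarith) hbi)
  · exact (pt_m110 c f y z hb p hvb).trans (mul_le_mul_of_nonneg_left (by linarith) hbi)

/-- **The bad configurations.** -/
theorem bad_sum {c : ℤ × ℤ × ℤ} (hc : c.1 ≠ 0 ∧ c.2.1 ≠ 0 ∧ c.2.2 ≠ 0) {I0 I1 I2 W : Finset ℤ}
    (hW : ∀ x ∈ I0, ∀ y ∈ I1, ∀ z ∈ I2, c.1 * x + c.2.1 * y + c.2.2 * z ∈ W)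
    {f : ℤ → ℝ} {E : ℝ} (hE : ∑ y ∈ W, f y ^ 2 ≤ E) {b : ℝ} (hb : 1 ≤ b) {y z : ℤ} (hy : y ∈ I1)
    (hz : z ∈ I2) (w : ℤ → ℤ → ℤ → ℤ → ℝ)
    (hw : ∀ x x' y' z', w x x' y' z' ≠ 0 → Bad b (lf c f) x x' y y' z z')
    (hw1 : ∀ x x' y' z', |w x x' y' z'| ≤ 1) :
    ∑ x ∈ I0, ∑ x' ∈ I0, ∑ y' ∈ I1, ∑ z' ∈ I2, |w x x' y' z' * o8 (lf c f) x x' y y' z z'| ≤
      12 * E ^ 4 / b := by
  have hb0 : 0 < b := by linarith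
  set P : Finset (ℤ × ℤ × ℤ × ℤ) := I0 ×ˢ (I0 ×ˢ (I1 ×ˢ I2)) with hP
  have hm : ∀ a b d : Bool, ∀ p ∈ P, vt c y z a b d p ∈ W := by
    intro a b d p hp
    simp only [hP, Finset.mem_product] at hp
    obtain ⟨h1, h2, h3, h4⟩ := hp
    unfold vt
    apply hW
    · cases a
      · exact h1
      · exact h2
    · cases b
      · exact hy
      · exact h3
    · cases d
      · exact hz
      · exact h4
  have hpt : ∀ p ∈ P, |w p.1 p.2.1 p.2.2.1 p.2.2.2 *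
      o8 (lf c f) p.1 p.2.1 y p.2.2.1 z p.2.2.2| ≤ (2 * b)⁻¹ *
      (m001 c f y z p + m010 c f y z p + m100 c f y z p + m011 c f y z p + m101 c f y z p +
        m110 c f y z p) := by
    intro p _
    by_cases h0 : w p.1 p.2.1 p.2.2.1 p.2.2.2 = 0
    · rw [h0, zero_mul, abs_zero]
      have q1 : 0 ≤ m001 c f y z p := mj_nonneg _ _ _ _ _ _ _ _ _ _ _ _
      have q2 : 0 ≤ m010 c f y z p := mj_nonneg _ _ _ _ _ _ _ _ _ _ _ _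
      have q3 : 0 ≤ m100 c f y z p := mj_nonneg _ _ _ _ _ _ _ _ _ _ _ _
      have q4 : 0 ≤ m011 c f y z p := mj_nonneg _ _ _ _ _ _ _ _ _ _ _ _
      have q5 : 0 ≤ m101 c f y z p := mj_nonneg _ _ _ _ _ _ _ _ _ _ _ _
      have q6 : 0 ≤ m110 c f y z p := mj_nonneg _ _ _ _ _ _ _ _ _ _ _ _
      positivity
    · refine le_trans ?_ (pt_all c f y z hb0 p (hw _ _ _ _ h0))
      rw [abs_mul]
      calc _ ≤ 1 * |o8 (lf c f) p.1 p.2.1 y p.2.2.1 z p.2.2.2| :=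
            mul_le_mul_of_nonneg_right (hw1 _ _ _ _) (abs_nonneg _)
        _ = _ := one_mul _
  have hsum : ∑ x ∈ I0, ∑ x' ∈ I0, ∑ y' ∈ I1, ∑ z' ∈ I2,
      |w x x' y' z' * o8 (lf c f) x x' y y' z z'| = ∑ p ∈ P, |w p.1 p.2.1 p.2.2.1 p.2.2.2 *
      o8 (lf c f) p.1 p.2.1 y p.2.2.1 z p.2.2.2| := by
    rw [hP]
    simp_rw [Finset.sum_product]
  have k1 := sum_m001 hc hE hm
  have k2 := sum_m010 hc hE hm
  have k3 := sum_m100 hc hE hm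
  have k4 := sum_m011 hc hE hm
  have k5 := sum_m101 hc hE hm
  have k6 := sum_m110 hc hE hm
  rw [hsum]
  refine (Finset.sum_le_sum hpt).trans ?_
  rw [← Finset.mul_sum]
  simp only [Finset.sum_add_distrib]
  calc (2 * b)⁻¹ * _ ≤ (2 * b)⁻¹ * (24 * E ^ 4) :=
        mul_le_mul_of_nonneg_left (by linarith) (by positivity)
    _ = 12 * E ^ 4 / b := by field_simp; ring

end

end Vale.Agent.P141.H651
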