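import Vale.Agent.P141.H277.PhiS
import Vale.Agent.P141.H972.NumQ

/-!
# P141, line A, flow part: the node forms from the pair statements and the numbers of the slots

Letters of `H277.PhiS` (`PhiZ`, `PhiX`, `PhiC`), of `H677.SlotX` (`SlotNum`) and of `H972.NumQ`
(`PCA`, `PBC`, `PZB`, `NumQ`).  For every bundle `D`:

* `num_pca : PartS D PhiZ → SlotNum D → NumQ D PCA`;
* `num_pbc : PartS D PhiX → SlotNum D → NumQ D PBC`;
* `num_pzb : PartS D PhiC → SlotNum D → NumQ D PZB`.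

The power of the energy number: `E ^ θ ≤ (L + 3780000) ^ θ (E / (L + 3780000)) ^ th` for `th ≤ θ`.
-/

namespace Vale.Agent.P141.H651

open Finset Matrix
open Vale.Agent.P141.PL (Pt iv cx cb)
open Vale.Agent.P141.PL.H315 (Tri)
open Vale.Agent.P141.H958 (lbs)
open Vale.Agent.P141.H581 (RX)
open Vale.Agent.P141.H747 (sG sL MA MB MC)
open Vale.Agent.P141.H795 (E8)
open Vale.Agent.P141.H677 (rt)
open Vale.Agent.P141.H677.Sk (FamA FamV Slt SlotN NumX SlotNum)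
open Vale.Agent.P141.H48 (US ES)
open Vale.Agent.P141.H305 (ClsM kapM)
open Vale.Agent.P141.H401 (Bun)
open Vale.Agent.P141.H186.PS (SlotSt PartS)
open Vale.Agent.P141.H277.Phi (PhiZ PhiX PhiC lgS MM HH tS Cz)
open Vale.Agent.P141.H972 (StP PCA PBC PZB NumQ m_le N_le)

noncomputable section

open scoped Classical

/-! ### Numbers -/

/-- the power of the energy number -/
theorem pow_en {E M θ th : ℝ} (hE : 0 < E) (hEM : E ≤ M) (hle : th ≤ θ) :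
    E ^ θ ≤ M ^ θ * (E / M) ^ th := by
  have hM : 0 < M := lt_of_lt_of_le hE hEM
  have h0 : 0 < E / M := by positivity
  have h1 : E / M ≤ 1 := by
    rw [div_le_one hM]
    exact hEM
  have h2 : (E / M) ^ θ ≤ (E / M) ^ th := Real.rpow_le_rpow_of_exponent_ge h0 h1 hle
  have h3 : E ^ θ = M ^ θ * (E / M) ^ θ := by
    rw [← Real.mul_rpow hM.le h0.le]
    congr 1
    field_simp
  rw [h3]
  exact mul_le_mul_of_nonneg_left h2 (by positivity)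

/-- the number of the slot, divided by the energy `m` -/
theorem num_en {C M θ th E G T s P : ℝ} {K : ℕ} (hC : 0 ≤ C) (hE : 0 < E) (hEM : E ≤ M)
    (hle : th ≤ θ) (hG : 0 ≤ G) (hT : 0 ≤ T) (hs : 0 ≤ s) (hP : 0 ≤ P) :
    C * (P * E ^ θ * (G * T * (1 * s) * 8 ^ K)) ≤
      (C * M ^ θ * (P * (T * s * 8 ^ K))) * (1 * (G * (E / M) ^ th)) := by
  have h := pow_en hE hEM hle
  calc C * (P * E ^ θ * (G * T * (1 * s) * 8 ^ K))
      = (C * P * (G * T * s * 8 ^ K)) * E ^ θ := by ring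
    _ ≤ (C * P * (G * T * s * 8 ^ K)) * (M ^ θ * (E / M) ^ th) :=
        mul_le_mul_of_nonneg_left h (by positivity)
    _ = _ := by ring

/-- the logarithm of the heights -/
theorem log_HH {X C0 κ ρ m : ℝ} {a' : ℕ} (hX : 1 ≤ X) (hXC : X ≤ C0) (hκ : 1 ≤ κ) (hρ : 1 ≤ ρ)
    (ha : 1 ≤ a') (hm : 0 < m) (hm1 : m ≤ 1) :
    0 ≤ 1 + Real.log ((X * κ * ρ) ^ ⌈X⌉₊ / m) ∧
      1 + Real.log ((X * κ * ρ) ^ ⌈X⌉₊ / m) ≤
        (⌈X⌉₊ : ℝ) * (1 + Real.log ((C0 * κ * ρ) ^ a' / m)) := by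
  have hn : 1 ≤ ⌈X⌉₊ := Nat.one_le_ceil_iff.2 (by linarith)
  have hn' : (1 : ℝ) ≤ (⌈X⌉₊ : ℝ) := by exact_mod_cast hn
  have ha' : (1 : ℝ) ≤ (a' : ℝ) := by exact_mod_cast ha
  have hκ0 : 0 < κ := by linarith
  have hρ0 : 0 < ρ := by linarith
  have b1 : 1 ≤ X * κ * ρ := one_le_mul_of_one_le_of_one_le
    (one_le_mul_of_one_le_of_one_le hX hκ) hρ
  have b12 : X * κ * ρ ≤ C0 * κ * ρ := by gcongr
  have b2 : 1 ≤ C0 * κ * ρ := b1.trans b12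
  have l1 : 0 ≤ Real.log (X * κ * ρ) := Real.log_nonneg b1
  have l12 : Real.log (X * κ * ρ) ≤ Real.log (C0 * κ * ρ) := Real.log_le_log (by linarith) b12
  have lm : Real.log m ≤ 0 := Real.log_nonpos hm.le hm1
  rw [Real.log_div (by positivity) hm.ne', Real.log_div (by positivity) hm.ne', Real.log_pow,
    Real.log_pow]
  refine ⟨by nlinarith, ?_⟩
  have h1 : Real.log (X * κ * ρ) ≤ (a' : ℝ) * Real.log (C0 * κ * ρ) := by nlinarith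
  have h2 : (⌈X⌉₊ : ℝ) * Real.log (X * κ * ρ) ≤
      (⌈X⌉₊ : ℝ) * ((a' : ℝ) * Real.log (C0 * κ * ρ)) :=
    mul_le_mul_of_nonneg_left h1 (by linarith)
  nlinarith

/-- the cube of the logarithm of the heights -/
theorem cube_HH {X C0 κ ρ m : ℝ} {a' : ℕ} (hX : 1 ≤ X) (hXC : X ≤ C0)
    (hC : X * (⌈X⌉₊ : ℝ) ^ 3 ≤ C0) (hκ : 1 ≤ κ) (hρ : 1 ≤ ρ) (ha : 1 ≤ a') (hm : 0 < m)
    (hm1 : m ≤ 1) :
    0 ≤ X * (1 + Real.log ((X * κ * ρ) ^ ⌈X⌉₊ / m)) ^ 3 ∧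
      X * (1 + Real.log ((X * κ * ρ) ^ ⌈X⌉₊ / m)) ^ 3 ≤
        C0 * (1 + Real.log ((C0 * κ * ρ) ^ a' / m)) ^ 3 := by
  obtain ⟨h0, h1⟩ := log_HH hX hXC hκ hρ ha hm hm1
  have hn : 1 ≤ ⌈X⌉₊ := Nat.one_le_ceil_iff.2 (by linarith)
  have hn' : (0 : ℝ) < (⌈X⌉₊ : ℝ) := by exact_mod_cast hn
  have h2 : 0 ≤ 1 + Real.log ((C0 * κ * ρ) ^ a' / m) := by
    by_contra hcon
    push Not at hcon
    have : (⌈X⌉₊ : ℝ) * (1 + Real.log ((C0 * κ * ρ) ^ a' / m)) < 0 :=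
      mul_neg_of_pos_of_neg hn' hcon
    linarith
  have hX0 : 0 ≤ X := by linarith
  refine ⟨by positivity, ?_⟩
  calc X * (1 + Real.log ((X * κ * ρ) ^ ⌈X⌉₊ / m)) ^ 3
      ≤ X * ((⌈X⌉₊ : ℝ) * (1 + Real.log ((C0 * κ * ρ) ^ a' / m))) ^ 3 :=
        mul_le_mul_of_nonneg_left (pow_le_pow_left₀ h0 h1 3) hX0
    _ = (X * (⌈X⌉₊ : ℝ) ^ 3) * (1 + Real.log ((C0 * κ * ρ) ^ a' / m)) ^ 3 := by ring
    _ ≤ _ := mul_le_mul_of_nonneg_right hC (by positivity)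

/-- the sum of the numbers and of the masses -/
theorem mass_le {X C C0 l t b b' c s : ℝ} {p p' K : ℕ} (hX : 1 ≤ X) (hC : 0 ≤ C)
    (h0 : X * (C + 1) ≤ C0) (hl : 1 ≤ l) (ht : 0 < t) (ht1 : t ≤ 1) (hs : 0 < s) (hc : 0 ≤ c)
    (hb : b ≤ b') (hb' : 64 ≤ b') (hp : p ≤ p') (hp' : 64 ≤ p') :
    0 ≤ C * (l ^ p * (t ^ (-(b * c)) * s * 8 ^ K)) ∧
      X * (C * (l ^ p * (t ^ (-(b * c)) * s * 8 ^ K)) +
        l ^ 64 * (t ^ (-(64 * c)) * s * 8 ^ K)) ≤ C0 * (l ^ p' * (t ^ (-(b' * c)) * s * 8 ^ K)) := by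
  refine ⟨by positivity, ?_⟩
  have h1 : l ^ p ≤ l ^ p' := pow_le_pow_right₀ hl hp
  have h2 : l ^ 64 ≤ l ^ p' := pow_le_pow_right₀ hl hp'
  have h3 : t ^ (-(b * c)) ≤ t ^ (-(b' * c)) :=
    Real.rpow_le_rpow_of_exponent_ge ht ht1 (by nlinarith)
  have h4 : t ^ (-(64 * c)) ≤ t ^ (-(b' * c)) :=
    Real.rpow_le_rpow_of_exponent_ge ht ht1 (by nlinarith)
  have e1 : l ^ p * (t ^ (-(b * c)) * s * 8 ^ K) ≤ l ^ p' * (t ^ (-(b' * c)) * s * 8 ^ K) := by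
    gcongr
  have e2 : l ^ 64 * (t ^ (-(64 * c)) * s * 8 ^ K) ≤ l ^ p' * (t ^ (-(b' * c)) * s * 8 ^ K) := by
    gcongr
  have hB : 0 ≤ l ^ p' * (t ^ (-(b' * c)) * s * 8 ^ K) := by positivity
  have hX0 : 0 ≤ X := by linarith
  calc X * (C * (l ^ p * (t ^ (-(b * c)) * s * 8 ^ K)) +
        l ^ 64 * (t ^ (-(64 * c)) * s * 8 ^ K))
      ≤ X * (C * (l ^ p' * (t ^ (-(b' * c)) * s * 8 ^ K)) +
        l ^ p' * (t ^ (-(b' * c)) * s * 8 ^ K)) :=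
        mul_le_mul_of_nonneg_left (add_le_add (mul_le_mul_of_nonneg_left e1 hC) e2) hX0
    _ = X * (C + 1) * (l ^ p' * (t ^ (-(b' * c)) * s * 8 ^ K)) := by ring
    _ ≤ _ := mul_le_mul_of_nonneg_right h0 hB

theorem tS_eq {q : H401.Num} {s r : ℝ} (h : 0 ≤ q.th s r) : tS q s r = 2 * q.th s r := by
  unfold tS
  rw [show 4 * q.th s r ^ 2 = (2 * q.th s r) ^ 2 by ring, Real.sqrt_sq (by positivity)]

theorem Cz_one {ι : Type} (C : FamV ι) : Cz 1 C = C := by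
  unfold Cz
  simp only [Real.sqrt_one, inv_one, one_smul]

/-! ### One slot -/

/-- what the glue needs at one slot: letters `N0`, `m` of the pair statement, `C0`, `a'`, `N` of the
node form -/
def Glu (Φ : SlotSt) (Ψ : StP) : Prop :=
  ∀ (ι : Type) [Fintype ι] [DecidableEq ι] (q : H401.Num) (n : ℕ) (F1 F2 F3 : ℕ → Pt → ℝ) (o : ℤ)
    (K : ℕ) (x : Pt) (s r : ℝ) (U : Tri) (g : ℤ → ℤ → ℝ) (u v : ℤ → ℤ → ι → ℝ) (A : FamA)
    (b' C' : FamV ι) (R : Slt ι) (κ E : ℝ) (h : Pt) (j : ℤ) (e : Pt) (X m N0 C0 N : ℝ) (a' : ℕ),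
    0 < q.t → q.t ≤ 1 → 0 < s → 1 ≤ r → 1 ≤ κ → 1 ≤ X → X ≤ C0 → X * (⌈X⌉₊ : ℝ) ^ 3 ≤ C0 →
    ⌈X⌉₊ ≤ a' → 0 < m → m ≤ 1 → 0 ≤ N0 → X * (N0 + MM q s r κ K) ≤ N →
    NumX K (cx K x) R C' h (N0 * (1 * m)) →
    Φ ι q n 1 F1 F2 F3 o K x s r U g u v A b' C' R κ E h j e X →
    ∀ t' ∈ rt (cx K x), ∀ (Lb : ℕ) (eb : ι ⊕ ι → ℤ), Function.Injective eb →
      (∀ i, eb i ∈ lbs Lb) →
      Ψ ι K (cx K x) R A b' C' Lb eb h j e t' (2 * q.th s r) m C0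
        ((C0 * κ * (r / q.t)) ^ a') N

theorem one_le_rt {t r : ℝ} (ht : 0 < t) (ht1 : t ≤ 1) (hr : 1 ≤ r) : 1 ≤ r / t := by
  rw [le_div_iff₀ ht]
  linarith

theorem one_le_ceil {X : ℝ} (hX : 1 ≤ X) : 1 ≤ ⌈X⌉₊ := Nat.one_le_ceil_iff.2 (by linarith)

theorem glu_z : Glu PhiZ PCA := by
  intro ι _ _ q n F1 F2 F3 o K x s r U g u v A b' C' R κ E h j e X m N0 C0 N a' ht ht1 hs hr hκ hX
    hXC hXC3 ha hm hm1 hN0 hN hnum H t' ht' Lb eb he1 he2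
  obtain ⟨Es, EA, h1, h2, h3, h4, h5⟩ := H one_pos m N0 hm hm1 hN0 hnum t' ht' Lb eb he1 he2
  have hth := (H401.Num.th_pos (p := q) ht hs hr).le
  obtain ⟨c0, c1⟩ := cube_HH (m := m) (a' := a') hX hXC hXC3 hκ (one_le_rt ht ht1 hr)
    ((one_le_ceil hX).trans ha) hm hm1
  rw [tS_eq hth, Cz_one] at h5
  exact ⟨X * (1 + Real.log (HH q r κ X / m)) ^ 3, Es, EA, c0, h1, h2, c1,
    h3.trans (mul_le_mul_of_nonneg_right hN (Real.sqrt_nonneg _)), h4.trans hN, h5⟩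

theorem glu_x : Glu PhiX PBC := by
  intro ι _ _ q n F1 F2 F3 o K x s r U g u v A b' C' R κ E h j e X m N0 C0 N a' ht ht1 hs hr hκ hX
    hXC hXC3 ha hm hm1 hN0 hN hnum H t' ht' Lb eb he1 he2
  obtain ⟨Es, EV, h1, h2, h3, h4, h5⟩ := H one_pos m N0 hm hm1 hN0 hnum t' ht' Lb eb he1 he2
  have hth := (H401.Num.th_pos (p := q) ht hs hr).le
  obtain ⟨c0, c1⟩ := cube_HH (m := m) (a' := a') hX hXC hXC3 hκ (one_le_rt ht ht1 hr)
    ((one_le_ceil hX).trans ha) hm hm1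
  rw [tS_eq hth, Cz_one] at h5
  exact ⟨X * (1 + Real.log (HH q r κ X / m)) ^ 3, Es, EV, c0, h1, h2, c1,
    h3.trans (mul_le_mul_of_nonneg_right hN (Real.sqrt_nonneg _)), h4.trans hN, h5⟩

theorem glu_c : Glu PhiC PZB := by
  intro ι _ _ q n F1 F2 F3 o K x s r U g u v A b' C' R κ E h j e X m N0 C0 N a' ht ht1 hs hr hκ hX
    hXC hXC3 ha hm hm1 hN0 hN hnum H t' ht' Lb eb he1 he2
  obtain ⟨Z, h1, h2, h3⟩ := H one_pos m N0 hm hm1 hN0 hnum t' ht' Lb eb he1 he2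
  have hth := (H401.Num.th_pos (p := q) ht hs hr).le
  have hρ := one_le_rt ht ht1 hr
  have hH := H972.H_le (a := ⌈X⌉₊) (a' := a') hX hXC hκ hρ ha
  have hN' : 0 ≤ N := le_trans (by
    have := H277.Phi.MM_nonneg (q := q) (K := K) ht ht1 hs hr hκ
    have : 0 ≤ X := by linarith
    positivity) hN
  rw [tS_eq hth, Cz_one] at h3
  exact ⟨Z, h1, h2.trans (mul_le_mul hN hH.2 (zero_le_one.trans hH.1) hN'), h3⟩

/-! ### The quantifiers -/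

theorem num_of {D : Bun} {Φ : SlotSt} {Ψ : StP} (hG : Glu Φ Ψ) (H1 : PartS D Φ)
    (H2 : SlotNum D) : NumQ D Ψ := by
  intro a ha ha1
  obtain ⟨es, hes, hes1, H1⟩ := H1 a ha ha1
  obtain ⟨es', hes', hes1', H2⟩ := H2 a ha ha1
  refine ⟨min es es', lt_min hes hes', (min_le_left _ _).trans hes1, fun e0 he0 he0' => ?_⟩
  obtain ⟨k8s, hk8s, H1⟩ := H1 e0 he0 (he0'.trans (min_le_left _ _))
  obtain ⟨k8s', hk8s', H2⟩ := H2 e0 he0 (he0'.trans (min_le_right _ _))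
  refine ⟨min k8s k8s', lt_min hk8s hk8s', fun k8 hk8 hk8' => ?_⟩
  obtain ⟨k3s, hk3s, H1⟩ := H1 k8 hk8 (hk8'.trans (min_le_left _ _))
  obtain ⟨k3s', hk3s', H2⟩ := H2 k8 hk8 (hk8'.trans (min_le_right _ _))
  refine ⟨min k3s k3s', lt_min hk3s hk3s', fun k3 hk3 hk3' => ?_⟩
  obtain ⟨c1, d1, hc1, hd1, H1⟩ := H1 k3 hk3 (hk3'.trans (min_le_left _ _))
  obtain ⟨p, θ, b, c2, d2, hθ, hb, hc2, hd2, H2⟩ := H2 k3 hk3 (hk3'.trans (min_le_right _ _))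
  refine ⟨θ, hθ, fun th hth hthle => ?_⟩
  refine ⟨max p 64, max b 64, min c1 c2, min d1 d2, hb.trans (le_max_left _ _), lt_min hc1 hc2,
    lt_min hd1 hd2, fun c hc hcc d hd hdd Kt e cP L hK he hcP hL CD hCD => ?_⟩
  obtain ⟨X, hX, H1⟩ := H1 c hc (hcc.trans (min_le_left _ _)) d hd (hdd.trans (min_le_left _ _))
    Kt e cP L hK he hcP hL CD hCD
  obtain ⟨C, hC, H2⟩ := H2 c hc (hcc.trans (min_le_right _ _)) d hd
    (hdd.trans (min_le_right _ _)) Kt e cP L hK he hcP hL CD hCD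
  have hL0 : 0 < L + 3780000 := by linarith
  have hCL : 0 ≤ C * (L + 3780000) ^ θ := by positivity
  have hX0 : 0 ≤ X := by linarith
  have i1 : 0 ≤ X * (⌈X⌉₊ : ℝ) ^ 3 := by positivity
  have i2 : 0 ≤ X * (C * (L + 3780000) ^ θ) := mul_nonneg hX0 hCL
  refine ⟨⌈X⌉₊, X * (C * (L + 3780000) ^ θ + 1) + X * (⌈X⌉₊ : ℝ) ^ 3, by linarith, ?_⟩
  intro t ht ht1 n F1 F2 F3 h1 h3 h2 o ho K hKn x ι _ _ s r U g u v hs hr hcls A b1 C1 hD R κ E hκ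
    hE hEL hsl h hh j hj q hq t' ht' Lb eb heb hlb
  have hm := m_le ht ht1 hr he0 hE hEL hth
  have hcd : 0 ≤ c + d := by linarith
  have hlg := H277.Phi.lgS_one (q := ⟨a, e0, k8, k3, c, d, Kt, e, cP, L, CD, t⟩) ht ht1 hr hκ
  have hmass := mass_le (K := K) (C0 := X * (C * (L + 3780000) ^ θ + 1) + X * (⌈X⌉₊ : ℝ) ^ 3)
    hX hCL (by linarith) hlg ht ht1 hs hcd (le_max_left b 64) (le_max_right b 64)
    (le_max_left p 64) (le_max_right p 64)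
  have hnum := (H2 t ht ht1 n 1 F1 F2 F3 h1 h3 h2 o ho K hKn x ι s r U g u v hs hr hcls A b1 C1 hD
    R κ E hκ hE hEL hsl h hh).mono (num_en (th := th) hC hE hEL hthle (by positivity)
      (by positivity) hs.le (pow_nonneg (zero_le_one.trans hlg) _))
  exact hG ι ⟨a, e0, k8, k3, c, d, Kt, e, cP, L, CD, t⟩ n F1 F2 F3 o K x s r U g u v A b1 C1 R κ E
    h j q X _ _ _ _ _ ht ht1 hs hr hκ hX (by linarith) (by linarith) le_rfl hm.1 hm.2 hmass.1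
    hmass.2 hnum (H1 t ht ht1 n 1 F1 F2 F3 h1 h3 h2 o ho K hKn x ι s r U g u v hs hr hcls A b1 C1
      hD R κ E hκ hE hEL hsl h hh j hj q hq) t' ht' Lb eb heb hlb

/-- **The pair `(C~, A)`.** -/
theorem num_pca {D : Bun} (H1 : PartS D PhiZ) (H2 : SlotNum D) : NumQ D PCA := num_of glu_z H1 H2

/-- **The pair `(b, C~)`.** -/
theorem num_pbc {D : Bun} (H1 : PartS D PhiX) (H2 : SlotNum D) : NumQ D PBC := num_of glu_x H1 H2

/-- **The pair `(b, C~)` at equal levels, crude.** -/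
theorem num_pzb {D : Bun} (H1 : PartS D PhiC) (H2 : SlotNum D) : NumQ D PZB := num_of glu_c H1 H2

end

end Vale.Agent.P141.H651
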